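import Vale.Agent.P261.H468.Spec

/-!
# P261, leaf B4: automorphisms close to the identity which are not central
-/

open Vale.Agent.P251.F Vale.Agent.P251 Vale.Agent.P217

namespace Vale.Agent.P261

namespace H984

theorem exists_pow_ne {p h : ℕ} [hp : Fact p.Prime] {k : Type} [Field k]
    (hk : Nat.card k = p ^ h) (hh : 2 ≤ h) : ∃ a : k, a ^ p ≠ a := by
  by_contra hcon
  push Not at hcon
  have hfin : Finite k := Nat.finite_of_card_ne_zero (by
    rw [hk]; exact pow_ne_zero _ hp.out.ne_zero)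
  have := Fintype.ofFinite k
  have h1 : (Finset.univ : Finset k).card ≤ (Polynomial.X ^ p - Polynomial.X :
      Polynomial k).natDegree := by
    refine Polynomial.card_le_degree_of_subset_roots ?_
    intro a _
    rw [Polynomial.mem_roots (FiniteField.X_pow_card_sub_X_ne_zero k hp.out.one_lt)]
    simp [hcon a]
  rw [FiniteField.X_pow_card_sub_X_natDegree_eq k hp.out.one_lt, Finset.card_univ,
    ← Nat.card_eq_fintype_card, hk] at h1
  have h2 : p ^ 1 < p ^ h := Nat.pow_lt_pow_right hp.out.one_lt (by omega)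
  rw [pow_one] at h2
  omega

theorem S_pow_mul_om {p h : ℕ} [Fact p.Prime] {k : Type} [Field k] [CharP k p]
    {H : FormalGroup k} [H.IsComm] (hH : HondaOver p h H) (m : ℕ) (c : k) :
    hH.D.S ^ m * hH.om c = hH.om (c ^ (p ^ m)) * hH.D.S ^ m := by
  induction m generalizing c with
  | zero => rw [pow_zero, pow_zero, pow_one, one_mul, mul_one]
  | succ m ihm =>
    rw [pow_succ, mul_assoc, hH.S_mul_om, ← mul_assoc, ihm, mul_assoc, ← pow_mul, ← pow_succ']

theorem om_mul_S_pow_inj {p h : ℕ} [hp : Fact p.Prime] {k : Type} [Field k] [CharP k p]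
    {H : FormalGroup k} [H.IsComm] (hH : HondaOver p h H) {n : ℕ} {a b : k}
    (hab : hH.om a * hH.D.S ^ n = hH.om b * hH.D.S ^ n) : a = b := by
  have h1 : ∀ c : k, (hH.om c * hH.D.S ^ n).cf (p ^ n) = c := by
    intro c
    have h2 := EndF.cf_mul_S_pow hH.frob (hH.om c) n (p ^ n)
    rw [if_pos dvd_rfl, Nat.div_self (pow_pos hp.out.pos n)] at h2
    exact h2.trans (hH.r_om c)
  rw [← h1 a, hab, h1 b]

theorem pow_p_pow_eq {p h : ℕ} [hp : Fact p.Prime] {k : Type} [Field k]
    (hk : Nat.card k = p ^ h) (a : k) (M : ℕ) : a ^ (p ^ (h * M)) = a := by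
  have hfin : Finite k := Nat.finite_of_card_ne_zero (by
    rw [hk]; exact pow_ne_zero _ hp.out.ne_zero)
  have := Fintype.ofFinite k
  induction M with
  | zero => rw [mul_zero, pow_zero, pow_one]
  | succ M ih =>
    rw [mul_add, mul_one, pow_add, pow_mul, ih, ← hk, Nat.card_eq_fintype_card,
      FiniteField.pow_card]

end H984

theorem exists_not_comm {p h : ℕ} [Fact p.Prime] {k : Type} [Field k] [CharP k p]
    (hk : Nat.card k = p ^ h) (hh : 2 ≤ h) {H : FormalGroup k} [H.IsComm]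
    (hH : HondaOver p h H) (M : ℕ) :
    ∃ γ ∈ AutF.congr H M, ∃ δ : AutF H, γ * δ ≠ δ * γ := by
  have hp : p.Prime := Fact.out
  obtain ⟨a, ha⟩ := H984.exists_pow_ne (k := k) hk hh
  set n : ℕ := h * M + 1 with hn
  have hn1 : M < p ^ n := by
    refine lt_of_lt_of_le ?_ (Nat.lt_pow_self hp.one_lt).le
    have : M ≤ h * M := Nat.le_mul_of_pos_left M (by omega)
    omega
  have hr : hH.D.r (1 + hH.D.S ^ n) = 1 := by
    rw [map_add, map_one, map_pow, hH.D.r_S, zero_pow (by omega), add_zero]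
  have hu : IsUnit ((1 + hH.D.S ^ n : EndF H).cf 1) := by
    have h1 : (1 + hH.D.S ^ n : EndF H).cf 1 = 1 := hr
    rw [h1]
    exact isUnit_one
  have ha0 : a ≠ 0 := by
    rintro rfl
    exact ha (zero_pow hp.ne_zero)
  have hv : IsUnit ((hH.om a).cf 1) := by
    have h1 : (hH.om a).cf 1 = a := hH.r_om a
    rw [h1]
    exact isUnit_iff_ne_zero.2 ha0
  refine ⟨(1 + hH.D.S ^ n : EndF H).toAut hu, ?_, (hH.om a).toAut hv, ?_⟩
  · have h1 : (1 + hH.D.S ^ n : EndF H).toAut hu ∈ AutF.congr H (p ^ n) := by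
      rw [hH.mem_congr_iff, EndF.toAut_toEnd, add_sub_cancel_left]
      exact ⟨1, (one_mul _).symm⟩
    exact fun i hi => h1 i (hi.trans hn1)
  · intro hcon
    have h1 := congrArg AutF.toEnd hcon
    rw [map_mul, map_mul, EndF.toAut_toEnd, EndF.toAut_toEnd, add_mul, mul_add, one_mul, mul_one,
      add_right_inj, H984.S_pow_mul_om] at h1
    have h2 := H984.om_mul_S_pow_inj hH h1
    rw [hn, pow_succ, pow_mul, H984.pow_p_pow_eq hk] at h2
    exact ha h2

end Vale.Agent.P261
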