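import Vale.Agent.P251.T.Axioms
import Mathlib.CategoryTheory.Triangulated.Triangulated

/-!
# P261, (K4a): the triangle of the Moore objects of `a`, `a b`, `b`
-/

open CategoryTheory MonoidalCategory Limits Pretriangulated MonObj

set_option linter.unusedSectionVars false

universe v u

namespace Vale.Agent.P261

open Vale.Agent.P251 Vale.Agent.P251.T

section moore

variable {T : Type u} [Category.{v} T] [Preadditive T] [HasZeroObject T]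
    [HasShift T ℤ] [∀ n : ℤ, (shiftFunctor T n).Additive] [Pretriangulated T] [IsTriangulated T]
    [MonoidalCategory T] [SymmetricCategory T] [TensorTriangulated T]

theorem exists_moore_triangle {a b : ℤ} {A AB B : T} {i₁ : 𝟙_ T ⟶ A} {δ₁ : A ⟶ (𝟙_ T)⟦(1 : ℤ)⟧}
    {i₂ : 𝟙_ T ⟶ AB} {δ₂ : AB ⟶ (𝟙_ T)⟦(1 : ℤ)⟧} {i₃ : 𝟙_ T ⟶ B} {δ₃ : B ⟶ (𝟙_ T)⟦(1 : ℤ)⟧}
    (h₁ : Triangle.mk (a • 𝟙 (𝟙_ T)) i₁ δ₁ ∈ distTriang T)
    (h₂ : Triangle.mk ((a * b) • 𝟙 (𝟙_ T)) i₂ δ₂ ∈ distTriang T)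
    (h₃ : Triangle.mk (b • 𝟙 (𝟙_ T)) i₃ δ₃ ∈ distTriang T) :
    ∃ (f : A ⟶ AB) (g : AB ⟶ B) (e : B ⟶ A⟦(1 : ℤ)⟧), Triangle.mk f g e ∈ distTriang T ∧
      i₁ ≫ f = b • i₂ ∧ i₂ ≫ g = i₃ := by
  have hcomp : (a • 𝟙 (𝟙_ T)) ≫ (b • 𝟙 (𝟙_ T)) = (a * b) • 𝟙 (𝟙_ T) := by
    rw [Preadditive.zsmul_comp, Preadditive.comp_zsmul, Category.comp_id, smul_smul]
  have O := Triangulated.someOctahedron hcomp h₁ h₃ h₂
  refine ⟨O.m₁, O.m₃, _, O.mem, ?_, O.comm₃⟩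
  rw [O.comm₁, Preadditive.zsmul_comp, Category.id_comp]

end moore

end Vale.Agent.P261
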