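import Vale.Agent.P251.S.CobarR

/-!
# P261, (K7): exactness of the cobar complex by dévissage along a triangle of coefficients
-/

open CategoryTheory MonoidalCategory Limits Pretriangulated MonObj

set_option linter.unusedSectionVars false

universe v u

namespace Vale.Agent.P261

open Vale.Agent.P251 Vale.Agent.P251.T Vale.Agent.P251.S

namespace H984

section tri

variable {T : Type u} [Category.{v} T] [Preadditive T] [HasZeroObject T] [HasShift T ℤ]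
  [∀ n : ℤ, (shiftFunctor T n).Additive] [Pretriangulated T]

/-- The odd homotopy of `Y` with respect to `P` vanishes. -/
def OddV (P Y : T) : Prop := ∀ t : ℤ, Odd t → ∀ x : P⟦t⟧ ⟶ Y, x = 0

/-- Injectivity of the first map of a triangle on even homotopy. -/
theorem inj {P : T} (Δ : Triangle T) (hΔ : Δ ∈ distTriang T) (h3 : OddV P Δ.obj₃) {t : ℤ}
    (ht : Even t) (a : P⟦t⟧ ⟶ Δ.obj₁) (ha : a ≫ Δ.mor₁ = 0) : a = 0 := by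
  obtain ⟨g, hg⟩ := Triangle.coyoneda_exact₁ Δ hΔ (a⟦(1 : ℤ)⟧') (by
    rw [← Functor.map_comp, ha, Functor.map_zero])
  have hg0 : g = 0 := by
    have h := h3 (t + 1) ht.add_one
      (((shiftFunctorAdd' T t 1 (t + 1) rfl).app P).hom ≫ g)
    rw [← cancel_epi ((shiftFunctorAdd' T t 1 (t + 1) rfl).app P).hom, h, comp_zero]
  apply (shiftFunctor T (1 : ℤ)).map_injective
  rw [hg, hg0, zero_comp, Functor.map_zero]

/-- Surjectivity of the second map of a triangle on even homotopy. -/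
theorem surj {P : T} (Δ : Triangle T) (hΔ : Δ ∈ distTriang T) (h1 : OddV P Δ.obj₁) {t : ℤ}
    (ht : Even t) (y : P⟦t⟧ ⟶ Δ.obj₃) : ∃ x : P⟦t⟧ ⟶ Δ.obj₂, y = x ≫ Δ.mor₂ := by
  apply Triangle.coyoneda_exact₃ Δ hΔ
  have e : (t - 1) + 1 = t := by ring
  obtain ⟨w, hw⟩ := (shiftFunctor T (1 : ℤ)).map_surjective
    (((shiftFunctorAdd' T (t - 1) 1 t e).app P).inv ≫ y ≫ Δ.mor₃)
  have hw0 : w = 0 := h1 (t - 1) (ht.sub_odd odd_one) w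
  rw [← cancel_epi ((shiftFunctorAdd' T (t - 1) 1 t e).app P).inv, ← hw, hw0, Functor.map_zero,
    comp_zero]

end tri

end H984

open H984

variable {T : Type u} [Category.{v} T] [Preadditive T] [HasZeroObject T]
    [HasShift T ℤ] [∀ n : ℤ, (shiftFunctor T n).Additive] [Pretriangulated T] [IsTriangulated T]
    [MonoidalCategory T] [SymmetricCategory T] [TensorTriangulated T]

/-- exactness in degree `s + 1` of the cobar complex of `L (- ⊗ C)` -/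
def ExC {R : T} [MonObj R] (U : UnitCof R) (C : T) {K : T} (F : LocFunctor K) (t : ℤ) (s : ℕ) :
    Prop :=
  ∀ c : (𝟙_ T)⟦t⟧ ⟶ (tensorRight C ⋙ F.L).obj (U.cobar.Q (s + 2) (𝟙_ T)),
    c ≫ (tensorRight C ⋙ F.L).map (U.cobar.d (s + 2) (𝟙_ T)) = 0 →
    ∃ c' : (𝟙_ T)⟦t⟧ ⟶ (tensorRight C ⋙ F.L).obj (U.cobar.Q (s + 1) (𝟙_ T)),
      c' ≫ (tensorRight C ⋙ F.L).map (U.cobar.d (s + 1) (𝟙_ T)) = c

/-- exactness in degree `0` -/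
def ExZ {R : T} [MonObj R] (U : UnitCof R) (C : T) {K : T} (F : LocFunctor K) (t : ℤ) : Prop :=
  ∀ c : (𝟙_ T)⟦t⟧ ⟶ (tensorRight C ⋙ F.L).obj (U.cobar.Q 1 (𝟙_ T)),
    c ≫ (tensorRight C ⋙ F.L).map (U.cobar.d 1 (𝟙_ T)) = 0 → c = 0

/-- vanishing of the odd homotopy -/
def OddC {R : T} [MonObj R] (U : UnitCof R) (C : T) {K : T} (F : LocFunctor K) : Prop :=
  ∀ (s : ℕ) (t : ℤ), Odd t →
    ∀ x : (𝟙_ T)⟦t⟧ ⟶ (tensorRight C ⋙ F.L).obj (U.cobar.Q (s + 1) (𝟙_ T)), x = 0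

namespace H984

/-- The triangle `L (Q ⊗ A) ⟶ L (Q ⊗ B) ⟶ L (Q ⊗ C)`. -/
noncomputable def LT {K : T} (F : LocFunctor K) (Q : T) (Δ : Triangle T) : Triangle T :=
  F.L.mapTriangle.obj (tensorLeftTriangle Q Δ)

theorem LT_dist {K : T} (F : LocFunctor K) (Q : T) (Δ : Triangle T) (h : Δ ∈ distTriang T) :
    LT F Q Δ ∈ distTriang T :=
  F.L.map_distinguished _ (tensorLeftTriangle_distinguished Q Δ h)

/-- The maps on coefficients commute with the maps on the cobar objects. -/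
theorem comm {K : T} (F : LocFunctor K) {Q Q' X Y : T} (d : Q ⟶ Q') (f : X ⟶ Y) :
    F.L.map (Q ◁ f) ≫ F.L.map (d ▷ Y) = F.L.map (d ▷ X) ≫ F.L.map (Q' ◁ f) := by
  rw [← Functor.map_comp, ← Functor.map_comp, whisker_exchange]

section chase

variable {P K : T} (F : LocFunctor K) {A B C : T} {f : A ⟶ B} {g : B ⟶ C} {e : C ⟶ A⟦(1 : ℤ)⟧}
  (h : Triangle.mk f g e ∈ distTriang T)

include h

theorem midL (Q : T) {P : T} (c : P ⟶ F.L.obj (Q ⊗ B)) (hc : c ≫ F.L.map (Q ◁ g) = 0) :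
    ∃ a : P ⟶ F.L.obj (Q ⊗ A), c = a ≫ F.L.map (Q ◁ f) :=
  Triangle.coyoneda_exact₂ (LT F Q (Triangle.mk f g e)) (LT_dist F _ _ h) c hc

theorem injL (Q : T) (hC : OddV P (F.L.obj (Q ⊗ C))) {t : ℤ} (ht : Even t)
    (a : P⟦t⟧ ⟶ F.L.obj (Q ⊗ A)) (ha : a ≫ F.L.map (Q ◁ f) = 0) : a = 0 :=
  inj (LT F Q (Triangle.mk f g e)) (LT_dist F _ _ h) hC ht a ha

theorem surjL (Q : T) (hA : OddV P (F.L.obj (Q ⊗ A))) {t : ℤ} (ht : Even t)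
    (y : P⟦t⟧ ⟶ F.L.obj (Q ⊗ C)) : ∃ x : P⟦t⟧ ⟶ F.L.obj (Q ⊗ B), y = x ≫ F.L.map (Q ◁ g) :=
  surj (LT F Q (Triangle.mk f g e)) (LT_dist F _ _ h) hA ht y

theorem chase {Q₁ Q₂ Q₃ : T} (d₁ : Q₁ ⟶ Q₂) (d₂ : Q₂ ⟶ Q₃) (hdd : d₁ ≫ d₂ = 0)
    (hA : OddV P (F.L.obj (Q₁ ⊗ A))) (hC : OddV P (F.L.obj (Q₃ ⊗ C))) {t : ℤ} (ht : Even t)
    (h1 : ∀ c : P⟦t⟧ ⟶ F.L.obj (Q₂ ⊗ A), c ≫ F.L.map (d₂ ▷ A) = 0 →
      ∃ c' : P⟦t⟧ ⟶ F.L.obj (Q₁ ⊗ A), c' ≫ F.L.map (d₁ ▷ A) = c)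
    (h2 : ∀ c : P⟦t⟧ ⟶ F.L.obj (Q₂ ⊗ C), c ≫ F.L.map (d₂ ▷ C) = 0 →
      ∃ c' : P⟦t⟧ ⟶ F.L.obj (Q₁ ⊗ C), c' ≫ F.L.map (d₁ ▷ C) = c)
    (c : P⟦t⟧ ⟶ F.L.obj (Q₂ ⊗ B)) (hc : c ≫ F.L.map (d₂ ▷ B) = 0) :
    ∃ c' : P⟦t⟧ ⟶ F.L.obj (Q₁ ⊗ B), c' ≫ F.L.map (d₁ ▷ B) = c := by
  -- the image of `c` with coefficients in `C` is a boundary
  obtain ⟨c2, hc2⟩ := h2 (c ≫ F.L.map (Q₂ ◁ g)) (by
    rw [Category.assoc, comm F, reassoc_of% hc, zero_comp])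
  -- lift to coefficients in `B`
  obtain ⟨b, hb⟩ := surjL F h Q₁ hA ht c2
  -- the difference comes from coefficients in `A`
  obtain ⟨a, ha⟩ := midL F h Q₂ (c - b ≫ F.L.map (d₁ ▷ B)) (by
    rw [Preadditive.sub_comp, Category.assoc, ← comm F, ← Category.assoc b, ← hb, hc2, sub_self])
  have hda : a ≫ F.L.map (d₂ ▷ A) = 0 := by
    refine injL F h Q₃ hC ht _ ?_
    rw [Category.assoc, ← comm F, ← Category.assoc, ← ha, Preadditive.sub_comp, hc,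
      Category.assoc, ← Functor.map_comp, ← comp_whiskerRight, hdd]
    have h0 : ((0 : Q₁ ⟶ Q₃) ▷ B) = 0 := MonoidalPreadditive.zero_whiskerRight
    rw [h0, Functor.map_zero, comp_zero, sub_zero]
  obtain ⟨a', ha'⟩ := h1 a hda
  refine ⟨b + a' ≫ F.L.map (Q₁ ◁ f), ?_⟩
  rw [Preadditive.add_comp, Category.assoc, comm F, ← Category.assoc a', ha', ← ha]
  abel

theorem chase0 {Q₁ Q₂ : T} (d₁ : Q₁ ⟶ Q₂) (hC : OddV P (F.L.obj (Q₂ ⊗ C))) {t : ℤ} (ht : Even t)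
    (h1 : ∀ c : P⟦t⟧ ⟶ F.L.obj (Q₁ ⊗ A), c ≫ F.L.map (d₁ ▷ A) = 0 → c = 0)
    (h2 : ∀ c : P⟦t⟧ ⟶ F.L.obj (Q₁ ⊗ C), c ≫ F.L.map (d₁ ▷ C) = 0 → c = 0)
    (c : P⟦t⟧ ⟶ F.L.obj (Q₁ ⊗ B)) (hc : c ≫ F.L.map (d₁ ▷ B) = 0) : c = 0 := by
  obtain ⟨a, ha⟩ := midL F h Q₁ c (h2 _ (by
    rw [Category.assoc, comm F, reassoc_of% hc, zero_comp]))
  have hda : a ≫ F.L.map (d₁ ▷ A) = 0 := by
    refine injL F h Q₂ hC ht _ ?_
    rw [Category.assoc, ← comm F, ← Category.assoc, ← ha, hc]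
  rw [ha, h1 a hda, zero_comp]

end chase

end H984

theorem exC_devissage {R : T} [MonObj R] (U : UnitCof R) {K : T} (F : LocFunctor K) {A B C : T}
    {f : A ⟶ B} {g : B ⟶ C} {e : C ⟶ A⟦(1 : ℤ)⟧} (h : Triangle.mk f g e ∈ distTriang T)
    (hA : OddC U A F) (hB : OddC U B F) (hC : OddC U C F) {t : ℤ} (ht : Even t) (s : ℕ)
    (h1 : ExC U A F t s) (h2 : ExC U C F t s) : ExC U B F t s :=
  chase F h (U.cobar.d (s + 1) (𝟙_ T)) (U.cobar.d (s + 2) (𝟙_ T)) (U.cobar.d_d _ _)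
    (hA s) (hC (s + 2)) ht h1 h2

theorem exZ_devissage {R : T} [MonObj R] (U : UnitCof R) {K : T} (F : LocFunctor K) {A B C : T}
    {f : A ⟶ B} {g : B ⟶ C} {e : C ⟶ A⟦(1 : ℤ)⟧} (h : Triangle.mk f g e ∈ distTriang T)
    (hA : OddC U A F) (hB : OddC U B F) (hC : OddC U C F) {t : ℤ} (ht : Even t)
    (h1 : ExZ U A F t) (h2 : ExZ U C F t) : ExZ U B F t :=
  chase0 F h (U.cobar.d 1 (𝟙_ T)) (hC 1) ht h1 h2

end Vale.Agent.P261
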